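import Vale.Agent.H15.BP.LPCert
import Vale.Agent.H30.C830.Data

/-!
# Part 0 of the LP certificate check of a chain instance with 830 items (support for P302)
-/

namespace Vale.Agent.H30.C830

open Vale.Agent.H15.BP

theorem cov_0 : items0.all (covOk XItems 17280 XCfgs) = true := by decide +kernel

theorem cov_4 : items4.all (covOk XItems 17280 XCfgs) = true := by decide +kernel

theorem cov_8 : items8.all (covOk XItems 17280 XCfgs) = true := by decide +kernel

theorem cov_12 : items12.all (covOk XItems 17280 XCfgs) = true := by decide +kernel

theorem cov_16 : items16.all (covOk XItems 17280 XCfgs) = true := by decide +kernel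

theorem cov_20 : items20.all (covOk XItems 17280 XCfgs) = true := by decide +kernel

theorem cov_24 : items24.all (covOk XItems 17280 XCfgs) = true := by decide +kernel

theorem cov_28 : items28.all (covOk XItems 17280 XCfgs) = true := by decide +kernel

theorem cov_32 : items32.all (covOk XItems 17280 XCfgs) = true := by decide +kernel

theorem cov_36 : items36.all (covOk XItems 17280 XCfgs) = true := by decide +kernel

theorem cov_40 : items40.all (covOk XItems 17280 XCfgs) = true := by decide +kernel

theorem cov_44 : items44.all (covOk XItems 17280 XCfgs) = true := by decide +kernel

theorem cov_48 : items48.all (covOk XItems 17280 XCfgs) = true := by decide +kernel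

theorem cov_52 : items52.all (covOk XItems 17280 XCfgs) = true := by decide +kernel

theorem cov_56 : items56.all (covOk XItems 17280 XCfgs) = true := by decide +kernel

theorem cov_60 : items60.all (covOk XItems 17280 XCfgs) = true := by decide +kernel

theorem cov_64 : items64.all (covOk XItems 17280 XCfgs) = true := by decide +kernel

theorem cov_68 : items68.all (covOk XItems 17280 XCfgs) = true := by decide +kernel

theorem cov_72 : items72.all (covOk XItems 17280 XCfgs) = true := by decide +kernel

theorem cov_76 : items76.all (covOk XItems 17280 XCfgs) = true := by decide +kernel

theorem cov_80 : items80.all (covOk XItems 17280 XCfgs) = true := by decide +kernel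

theorem cfgok_3 : cfgs3.all (cfgOk XItems) = true := by decide +kernel

theorem cfgok_7 : cfgs7.all (cfgOk XItems) = true := by decide +kernel

theorem cfgok_11 : cfgs11.all (cfgOk XItems) = true := by decide +kernel

theorem cfgok_15 : cfgs15.all (cfgOk XItems) = true := by decide +kernel

theorem cfgok_19 : cfgs19.all (cfgOk XItems) = true := by decide +kernel

theorem cfgok_23 : cfgs23.all (cfgOk XItems) = true := by decide +kernel

theorem cfgok_27 : cfgs27.all (cfgOk XItems) = true := by decide +kernel

theorem cfgok_31 : cfgs31.all (cfgOk XItems) = true := by decide +kernel

theorem cfgok_35 : cfgs35.all (cfgOk XItems) = true := by decide +kernel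

theorem cfgok_39 : cfgs39.all (cfgOk XItems) = true := by decide +kernel

theorem cfgok_43 : cfgs43.all (cfgOk XItems) = true := by decide +kernel

theorem cfgok_47 : cfgs47.all (cfgOk XItems) = true := by decide +kernel

theorem cfgok_51 : cfgs51.all (cfgOk XItems) = true := by decide +kernel

theorem cfgok_55 : cfgs55.all (cfgOk XItems) = true := by decide +kernel

theorem cfgok_59 : cfgs59.all (cfgOk XItems) = true := by decide +kernel

end Vale.Agent.H30.C830
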