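import Vale.Agent.H15.BP.LPCert
import Vale.Agent.H30.C830.Data

/-!
# Part 1 of the LP certificate check of a chain instance with 830 items (support for P302)
-/

namespace Vale.Agent.H30.C830

open Vale.Agent.H15.BP

theorem cov_1 : items1.all (covOk XItems 17280 XCfgs) = true := by decide +kernel

theorem cov_5 : items5.all (covOk XItems 17280 XCfgs) = true := by decide +kernel

theorem cov_9 : items9.all (covOk XItems 17280 XCfgs) = true := by decide +kernel

theorem cov_13 : items13.all (covOk XItems 17280 XCfgs) = true := by decide +kernel

theorem cov_17 : items17.all (covOk XItems 17280 XCfgs) = true := by decide +kernel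

theorem cov_21 : items21.all (covOk XItems 17280 XCfgs) = true := by decide +kernel

theorem cov_25 : items25.all (covOk XItems 17280 XCfgs) = true := by decide +kernel

theorem cov_29 : items29.all (covOk XItems 17280 XCfgs) = true := by decide +kernel

theorem cov_33 : items33.all (covOk XItems 17280 XCfgs) = true := by decide +kernel

theorem cov_37 : items37.all (covOk XItems 17280 XCfgs) = true := by decide +kernel

theorem cov_41 : items41.all (covOk XItems 17280 XCfgs) = true := by decide +kernel

theorem cov_45 : items45.all (covOk XItems 17280 XCfgs) = true := by decide +kernel

theorem cov_49 : items49.all (covOk XItems 17280 XCfgs) = true := by decide +kernel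

theorem cov_53 : items53.all (covOk XItems 17280 XCfgs) = true := by decide +kernel

theorem cov_57 : items57.all (covOk XItems 17280 XCfgs) = true := by decide +kernel

theorem cov_61 : items61.all (covOk XItems 17280 XCfgs) = true := by decide +kernel

theorem cov_65 : items65.all (covOk XItems 17280 XCfgs) = true := by decide +kernel

theorem cov_69 : items69.all (covOk XItems 17280 XCfgs) = true := by decide +kernel

theorem cov_73 : items73.all (covOk XItems 17280 XCfgs) = true := by decide +kernel

theorem cov_77 : items77.all (covOk XItems 17280 XCfgs) = true := by decide +kernel

theorem cov_81 : items81.all (covOk XItems 17280 XCfgs) = true := by decide +kernel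

theorem cfgok_4 : cfgs4.all (cfgOk XItems) = true := by decide +kernel

theorem cfgok_8 : cfgs8.all (cfgOk XItems) = true := by decide +kernel

theorem cfgok_12 : cfgs12.all (cfgOk XItems) = true := by decide +kernel

theorem cfgok_16 : cfgs16.all (cfgOk XItems) = true := by decide +kernel

theorem cfgok_20 : cfgs20.all (cfgOk XItems) = true := by decide +kernel

theorem cfgok_24 : cfgs24.all (cfgOk XItems) = true := by decide +kernel

theorem cfgok_28 : cfgs28.all (cfgOk XItems) = true := by decide +kernel

theorem cfgok_32 : cfgs32.all (cfgOk XItems) = true := by decide +kernel

theorem cfgok_36 : cfgs36.all (cfgOk XItems) = true := by decide +kernel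

theorem cfgok_40 : cfgs40.all (cfgOk XItems) = true := by decide +kernel

theorem cfgok_44 : cfgs44.all (cfgOk XItems) = true := by decide +kernel

theorem cfgok_48 : cfgs48.all (cfgOk XItems) = true := by decide +kernel

theorem cfgok_52 : cfgs52.all (cfgOk XItems) = true := by decide +kernel

theorem cfgok_56 : cfgs56.all (cfgOk XItems) = true := by decide +kernel

theorem cfgok_60 : cfgs60.all (cfgOk XItems) = true := by decide +kernel

end Vale.Agent.H30.C830
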