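import Vale.Agent.H15.BP.LPCert
import Vale.Agent.H30.C830.Data
import Vale.Agent.H30.C830.Cov0

/-!
# Part 2 of the LP certificate check of a chain instance with 830 items (support for P302)
-/

namespace Vale.Agent.H30.C830

open Vale.Agent.H15.BP

theorem cov_2 : items2.all (covOk XItems 17280 XCfgs) = true := by decide +kernel

theorem cov_6 : items6.all (covOk XItems 17280 XCfgs) = true := by decide +kernel

theorem cov_10 : items10.all (covOk XItems 17280 XCfgs) = true := by decide +kernel

theorem cov_14 : items14.all (covOk XItems 17280 XCfgs) = true := by decide +kernel

theorem cov_18 : items18.all (covOk XItems 17280 XCfgs) = true := by decide +kernel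

theorem cov_22 : items22.all (covOk XItems 17280 XCfgs) = true := by decide +kernel

theorem cov_26 : items26.all (covOk XItems 17280 XCfgs) = true := by decide +kernel

theorem cov_30 : items30.all (covOk XItems 17280 XCfgs) = true := by decide +kernel

theorem cov_34 : items34.all (covOk XItems 17280 XCfgs) = true := by decide +kernel

theorem cov_38 : items38.all (covOk XItems 17280 XCfgs) = true := by decide +kernel

theorem cov_42 : items42.all (covOk XItems 17280 XCfgs) = true := by decide +kernel

theorem cov_46 : items46.all (covOk XItems 17280 XCfgs) = true := by decide +kernel

theorem cov_50 : items50.all (covOk XItems 17280 XCfgs) = true := by decide +kernel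

theorem cov_54 : items54.all (covOk XItems 17280 XCfgs) = true := by decide +kernel

theorem cov_58 : items58.all (covOk XItems 17280 XCfgs) = true := by decide +kernel

theorem cov_62 : items62.all (covOk XItems 17280 XCfgs) = true := by decide +kernel

theorem cov_66 : items66.all (covOk XItems 17280 XCfgs) = true := by decide +kernel

theorem cov_70 : items70.all (covOk XItems 17280 XCfgs) = true := by decide +kernel

theorem cov_74 : items74.all (covOk XItems 17280 XCfgs) = true := by decide +kernel

theorem cov_78 : items78.all (covOk XItems 17280 XCfgs) = true := by decide +kernel

theorem cov_82 : items82.all (covOk XItems 17280 XCfgs) = true := by decide +kernel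

theorem cfgok_5 : cfgs5.all (cfgOk XItems) = true := by decide +kernel

theorem cfgok_9 : cfgs9.all (cfgOk XItems) = true := by decide +kernel

theorem cfgok_13 : cfgs13.all (cfgOk XItems) = true := by decide +kernel

theorem cfgok_17 : cfgs17.all (cfgOk XItems) = true := by decide +kernel

theorem cfgok_21 : cfgs21.all (cfgOk XItems) = true := by decide +kernel

theorem cfgok_25 : cfgs25.all (cfgOk XItems) = true := by decide +kernel

theorem cfgok_29 : cfgs29.all (cfgOk XItems) = true := by decide +kernel

theorem cfgok_33 : cfgs33.all (cfgOk XItems) = true := by decide +kernel

theorem cfgok_37 : cfgs37.all (cfgOk XItems) = true := by decide +kernel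

theorem cfgok_41 : cfgs41.all (cfgOk XItems) = true := by decide +kernel

theorem cfgok_45 : cfgs45.all (cfgOk XItems) = true := by decide +kernel

theorem cfgok_49 : cfgs49.all (cfgOk XItems) = true := by decide +kernel

theorem cfgok_53 : cfgs53.all (cfgOk XItems) = true := by decide +kernel

theorem cfgok_57 : cfgs57.all (cfgOk XItems) = true := by decide +kernel

theorem cfgok_61 : cfgs61.all (cfgOk XItems) = true := by decide +kernel

end Vale.Agent.H30.C830
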