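import Vale.Agent.H15.BP.LPCert
import Vale.Agent.H30.C830.Data
import Vale.Agent.H30.C830.Cov1

/-!
# Part 3 of the LP certificate check of a chain instance with 830 items (support for P302)
-/

namespace Vale.Agent.H30.C830

open Vale.Agent.H15.BP

theorem cov_3 : items3.all (covOk XItems 17280 XCfgs) = true := by decide +kernel

theorem cov_7 : items7.all (covOk XItems 17280 XCfgs) = true := by decide +kernel

theorem cov_11 : items11.all (covOk XItems 17280 XCfgs) = true := by decide +kernel

theorem cov_15 : items15.all (covOk XItems 17280 XCfgs) = true := by decide +kernel

theorem cov_19 : items19.all (covOk XItems 17280 XCfgs) = true := by decide +kernel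

theorem cov_23 : items23.all (covOk XItems 17280 XCfgs) = true := by decide +kernel

theorem cov_27 : items27.all (covOk XItems 17280 XCfgs) = true := by decide +kernel

theorem cov_31 : items31.all (covOk XItems 17280 XCfgs) = true := by decide +kernel

theorem cov_35 : items35.all (covOk XItems 17280 XCfgs) = true := by decide +kernel

theorem cov_39 : items39.all (covOk XItems 17280 XCfgs) = true := by decide +kernel

theorem cov_43 : items43.all (covOk XItems 17280 XCfgs) = true := by decide +kernel

theorem cov_47 : items47.all (covOk XItems 17280 XCfgs) = true := by decide +kernel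

theorem cov_51 : items51.all (covOk XItems 17280 XCfgs) = true := by decide +kernel

theorem cov_55 : items55.all (covOk XItems 17280 XCfgs) = true := by decide +kernel

theorem cov_59 : items59.all (covOk XItems 17280 XCfgs) = true := by decide +kernel

theorem cov_63 : items63.all (covOk XItems 17280 XCfgs) = true := by decide +kernel

theorem cov_67 : items67.all (covOk XItems 17280 XCfgs) = true := by decide +kernel

theorem cov_71 : items71.all (covOk XItems 17280 XCfgs) = true := by decide +kernel

theorem cov_75 : items75.all (covOk XItems 17280 XCfgs) = true := by decide +kernel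

theorem cov_79 : items79.all (covOk XItems 17280 XCfgs) = true := by decide +kernel

theorem cfgok_0 : cfgs0.all (cfgOk XItems) = true := by decide +kernel

theorem cfgok_1 : cfgs1.all (cfgOk XItems) = true := by decide +kernel

theorem cfgok_2 : cfgs2.all (cfgOk XItems) = true := by decide +kernel

theorem cfgok_6 : cfgs6.all (cfgOk XItems) = true := by decide +kernel

theorem cfgok_10 : cfgs10.all (cfgOk XItems) = true := by decide +kernel

theorem cfgok_14 : cfgs14.all (cfgOk XItems) = true := by decide +kernel

theorem cfgok_18 : cfgs18.all (cfgOk XItems) = true := by decide +kernel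

theorem cfgok_22 : cfgs22.all (cfgOk XItems) = true := by decide +kernel

theorem cfgok_26 : cfgs26.all (cfgOk XItems) = true := by decide +kernel

theorem cfgok_30 : cfgs30.all (cfgOk XItems) = true := by decide +kernel

theorem cfgok_34 : cfgs34.all (cfgOk XItems) = true := by decide +kernel

theorem cfgok_38 : cfgs38.all (cfgOk XItems) = true := by decide +kernel

theorem cfgok_42 : cfgs42.all (cfgOk XItems) = true := by decide +kernel

theorem cfgok_46 : cfgs46.all (cfgOk XItems) = true := by decide +kernel

theorem cfgok_50 : cfgs50.all (cfgOk XItems) = true := by decide +kernel

theorem cfgok_54 : cfgs54.all (cfgOk XItems) = true := by decide +kernel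

theorem cfgok_58 : cfgs58.all (cfgOk XItems) = true := by decide +kernel

end Vale.Agent.H30.C830
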